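import Crest.Agent.X212.Psc4.Mod
import Crest.Agent.X212.Mp86.Ps
import Crest.Agent.X212.Dr59.Tex

/-!
# Row 212, DIX-PSC (helper4), file 3: base data which are a circle times a cap inside the wall
-/

set_option autoImplicit false
set_option linter.unusedSectionVars false
noncomputable section
open Set Filter Topology Function Metric
open scoped ContDiff Manifold InnerProductSpace
open Crest.Agent.R208.F (Ext)

namespace Crest.Agent.X212.Psc4
open Dfl49 Cyl58 Sob92 Wz78 An M G75 Rf65 Cyf70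
open Met55 (VF VAt VJ FAt Co Sp atx dmp pfd)
open Dr59 (mf ne0)
open Line51 (Ln Uni th J1)

local notation "st" => Real.smoothTransition

section blend
variable {X : Mf 4} (N : Band X) {x : X.M}

/-- `1` for `s ≤ -1`, `0` for `s ≥ -1/2` -/
def ca (x : X.M) : ℝ := st (-1 - 2 * N.s x)

theorem ca_sm (x : X.M) : SA X.I (ca N) x :=
  (Real.smoothTransition.contDiff.comp (f := fun s : ℝ => -1 - 2 * s) (by fun_prop)).contDiffAt.comp_contMDiffAt
    (N.contMDiff_s x)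

variable {N}

theorem s_neg : x ∈ N.wall.sd false ↔ N.s x < 0 := by simp [N.mem_sd, pm]

theorem s_pos : x ∈ N.wall.sd true ↔ 0 < N.s x := by simp [N.mem_sd, pm]

theorem j_neg {q : N.Y.M × ℝ} : N.j q ∈ N.wall.sd false ↔ q.2 < 0 := by simp [N.j_mem_sd, pm]

theorem ca_one (h : N.s x ≤ -1) : ca N x = 1 := Real.smoothTransition.one_of_one_le (by linarith)

theorem ca_zero (h : -1 / 2 ≤ N.s x) : ca N x = 0 := Real.smoothTransition.zero_of_nonpos (by linarith)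

theorem ca_supp : tsupport (ca N) ⊆ N.wall.sd false :=
  (closure_minimal (t := {x | N.s x ≤ -1 / 2}) (fun _ (hx : _ ≠ _) => le_of_not_ge fun k => hx (ca_zero k))
    (isClosed_le N.contMDiff_s.continuous continuous_const)).trans fun x (hx : N.s x ≤ _) => s_neg.2 (by linarith)

theorem s_le {q : N.Y.M × ℝ} (h : q.2 ≤ -1) : N.s (N.j q) ≤ -1 := by
  rcases le_total q.2 (-3) with k | k
  · rw [N.s_j]; linarith [clp_le k]
  · rwa [N.s_j_of_le (abs_le.2 ⟨k, by linarith⟩)]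

theorem s_off (h : x ∈ N.wall.sd false) (k : x ∉ range N.j) : N.s x ≤ -1 := by
  have := N.three_le_abs_s fun e => k (N.slab_subset _ e)
  rw [abs_of_neg (s_neg.1 h)] at this
  linarith

theorem exists_met {ι : Type} [Fintype ι] {K : ι → VF X.I X.M} (hK : ∀ x ∈ N.wall.sd false, FAt K x)
    (B : Bas X univ) : ∃ B' : Bas X univ, (∀ u x, N.s x ≤ -1 → Co (atx K x) (atx (B'.r u) x)) ∧
      ∀ u, ∀ x ∈ N.wall.sd true, Co (atx (B'.r u) x) (atx (B.r u) x) := by
  let r : ℝ → ι ⊕ Fin B.n → VF X.I X.M := fun u =>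
    Sum.elim (fun k x => ca N x • K k x) fun k x => st (N.s x + 1) • B.r u k x
  have e : ∀ u x α β, cm (atx (r u) x) α β =
      ca N x ^ 2 * cm (atx K x) α β + st (N.s x + 1) ^ 2 * cm (atx (B.r u) x) α β := fun u x α β => by
    simp only [M.cm, Fintype.sum_sum_type, Finset.mul_sum]
    refine congrArg₂ (· + ·) (Finset.sum_congr rfl fun i _ => ?_) (Finset.sum_congr rfl fun i _ => ?_) <;>
      exact (congrArg₂ (· * ·) (α.map_smul _ _) (β.map_smul _ _)).trans (by simp only [smul_eq_mul, atx]; ring)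
  refine ⟨mkB r ?_ fun u x => ?_, fun u x hx => .trans (fun α β => .symm ((e u x α β).trans ?_)) (mkB_co _ _ u x),
    fun u x hx => (mkB_co _ _ u x).symm.trans fun α β => (e u x α β).trans ?_⟩
  · rintro u x (k | k)
    exacts [.of_fixed (.cutoff (ca_sm N x) ca_supp fun h => (hK x h).sm k), .smul (.of_fixed
      (Real.smoothTransition.contDiffAt.comp_contMDiffAt ((N.contMDiff_s x).add contMDiffAt_const))) (B.sm u x trivial k)]
  · by_cases h : ca N x = 0
    · have k : st (N.s x + 1) ≠ 0 := (Real.smoothTransition.pos_of_pos (by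
        linarith [lt_of_not_ge fun k => zero_ne_one (h.symm.trans (ca_one k))])).ne'
      exact (B.sp u x trivial).of_range fun a => ⟨_, .inr a, (inv_smul_smul₀ k _).symm⟩
    · exact (hK x (ca_supp (subset_tsupport _ h))).sp.of_range fun a => ⟨_, .inl a, (inv_smul_smul₀ h _).symm⟩
  · rw [ca_one hx, Real.smoothTransition.zero_of_nonpos (by linarith)]; simp [M.cm]
  · have := s_pos.1 hx
    rw [ca_zero (by linarith), Real.smoothTransition.one_of_one_le (by linarith)]; simp [M.cm]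

/-- the blend of a form inside with a family of forms -/
def bl {γ : X.M → Ext X.E} (hs : Dr59.Sm X.I (N.wall.sd false) γ) (hd : Dr59.Dg 1 univ γ) (b : LBas X univ) :
    LBas X univ :=
  have s : Dr59.Sm X.I univ (ca N • γ) := fun x _ => (em _).elim (fun k => (hs x (ca_supp k)).fsmul le_rfl (ca_sm N x))
    fun k => Dr59.cAt_zero.congr ((notMem_tsupport_iff_eventuallyEq.1 k).mono fun y hy => by simp [hy])
  have c : ∀ x, SA X.I (fun x => 1 - ca N x) x := fun x => contMDiffAt_const.sub (ca_sm N x)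
  { b u := ca N • γ + (fun x => 1 - ca N x) • b.b u
    sm u := s.add fun x _ => (b.sm u x trivial).fsmul le_rfl (c x)
    dg u := (hd.fsmul _).add ((b.dg u).fsmul _)
    js u x _ := (Line51.j1_fixed (s x trivial) (.of_forall fun y => hd.fsmul _ y trivial)).add
      (J1.smul (.of_fixed (c x)) (b.js u x trivial)) }

end blend

section cyl
variable {Y : Mf 3} {κ : Type} [Fintype κ] {F : Fr Y.I Y.M κ} {θ : Y.M → Circle} {ϖ : Y.M → V3}

theorem gq_cyl (h : PR F θ ϖ) {l : ℝ → ℝ} {q : Y.M × ℝ} {w : Option κ → ℝ} (hl : HasDerivAt l (w none)⁻¹ q.2)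
    (w0 : w none ≠ 0) (w1 : ∀ k, w (some k) = 1) (l2 : 2 ≤ l q.2) :
    Gq (IC Y.I) (fun q => (θ q.1, ϖ q.1, l q.2)) q fun i => w i • atx (ce F.e) q i := fun a b => by
  have k := (h.oe.contMDiff (q.1, 0)).comp q.1 (contMDiffAt_id.prodMk contMDiffAt_const)
  have m1 : MDifferentiableAt Y.I 𝓘(ℝ, ℂ) (fun y => (θ y : ℂ)) q.1 :=
    ((Line51.contMDiff_coe _).comp _ k.fst).mdifferentiableAt ne0
  have m2 : MDifferentiableAt Y.I 𝓘(ℝ, V3) ϖ q.1 := by simpa [comp_def] using k.snd.mdifferentiableAt ne0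
  have m : MDifferentiableAt (IC Y.I) 𝓘(ℝ, W6) (fun q : Y.M × ℝ => ((θ q.1 : ℂ), ϖ q.1, l q.2)) q :=
    (m1.comp q mdifferentiableAt_fst).prodMk_space ((m2.comp q mdifferentiableAt_fst).prodMk_space
      (hl.differentiableAt.mdifferentiableAt.comp q mdifferentiableAt_snd))
  have e0 : ∀ a, fm (IC Y.I) (fun q => (θ q.1, ϖ q.1, l q.2)) q a (atx (ce F.e) q none) = a.2.2 * (w none)⁻¹ :=
    fun a => (congrArg (pr a) ((dv_none m).trans ((hasDerivAt_const _ (θ q.1 : ℂ)).prodMk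
      ((hasDerivAt_const _ (ϖ q.1)).prodMk hl)).deriv)).trans (by simp [pr_apply])
  have e1 : ∀ a k, fm (IC Y.I) (fun q => (θ q.1, ϖ q.1, l q.2)) q a (atx (ce F.e) q (some k)) =
      ⟪a.1, F.D k (fun y => (θ y : ℂ)) q.1⟫_ℝ + ⟪a.2.1, F.D k ϖ q.1⟫_ℝ := fun a k =>
    have k1 := (dv_prod m1 (m2.prodMk_space mdifferentiableAt_const)).trans
      (congrArg (Prod.mk _) (dv_prod (e := F.e k) (v := fun _ => l q.2) m2 mdifferentiableAt_const))
    (congrArg (pr a) ((dv_some m k).trans k1)).trans (by simp [pr_apply]; rfl)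
  have d : deriv Fn (l q.2) = 0 := by
    rw [d_Fn]; simp [Real.smoothTransition.zero_of_nonpos (sub_nonpos.2 l2)]
  have g := (Finset.sum_congr rfl fun _ _ => mul_comm _ _).trans (h.g12 q.1 b.1 a.2.1)
  simp only [M.cm, Fintype.sum_option, map_smul, e0, e1, w1, one_mul, smul_eq_mul, add_mul, mul_add,
    Finset.sum_add_distrib, h.g1, h.g2, h.g12, g, Tq, nc, nq2, pr_apply, d, pf.one _ l2]
  field_simp
  ring

end cyl

variable {κ lam : Type} [Fintype κ] [Fintype lam] [DecidableEq lam] {Lm : LM κ lam} {S : Scene Lm} {R : S.A}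
  {i : S.L}

section met
variable {θ : (S.M.bn R).Y.M → Circle} {ϖ : (S.M.bn R).Y.M → V3}
  {Ξ : PartialDiffeomorph IQ S.X.I (Circle × V3) S.X.M ∞} {ρ A f : ℝ → ℝ} {r C : ℝ}
  (h : DD S i R θ ϖ Ξ ρ r) (hA : Rad A f (ρ 0 ^ 2))
include h hA

theorem ins {x : S.X.M} (hx : x ∈ (S.M.sys.w R).sd false) : FAt (pfd Ξ (K0 A f)) x ∧ SA S.X.I (Ψ0 A f ∘ Ξ.symm) x ∧
    Hq ((Ψ0 A f ∘ Ξ.symm) x) ∧ Gq S.X.I (Ψ0 A f ∘ Ξ.symm) x (atx (pfd Ξ (K0 A f)) x) := by
  obtain ⟨q, hq, rfl⟩ := h.sd.le hx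
  have s := h.src ⟨trivial, ball_subset_ball (h.pos 0).2.le hq.2⟩
  have n : ‖q.2‖ ^ 2 < ρ 0 ^ 2 := pow_lt_pow_left₀ (mem_ball_zero_iff.1 hq.2) (norm_nonneg _) two_ne_zero
  obtain ⟨a, b, c⟩ := (gq_K0 hA n).push Ξ s (sa_Ψ0 hA n)
  exact ⟨.pfd s (fAt_K0 hA n), a, b ▸ hq_Ψ0 hA n, by rwa [Met55.atx_pfd s]⟩

variable (hC : 4 ≤ C) (e : ∀ s ∈ Ioo (-3 : ℝ) 0, A (ρ s ^ 2) = len 1 false s + C) {q : (S.M.bn R).Y.M × ℝ}
  (hq : q.2 ∈ Ioo (-3 : ℝ) 0)
include hC e hq

omit h hA e in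
theorem two_le : 2 ≤ len 1 false q.2 + C := by
  have := (up_len.strictMonoOn ordConnected_Iio (by norm_num) hq.2 hq.1).le
  rw [len_outer (by simp [pm])] at this
  simp only [pm] at this
  norm_num at this
  linarith

theorem band : (Ψ0 A f ∘ Ξ.symm) ((S.M.bn R).j q) = ((θ q.1 : ℂ), ϖ q.1, len 1 false q.2 + C) := by
  have p := h.pos q.2
  have n : ‖ρ q.2 • ϖ q.1‖ = ρ q.2 := by rw [norm_smul, h.pr.nrm, mul_one, Real.norm_of_nonneg p.1.le]
  have l : ρ q.2 ^ 2 < ρ 0 ^ 2 := pow_lt_pow_left₀ (h.up.strictMono hq.2) p.1.le two_ne_zero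
  have k := hA.eq _ l
  rw [e _ hq, pf.one _ (two_le hC hq), ← mul_pow,
    pow_eq_one_iff_of_nonneg (mul_pos (hA.pos _ l) p.1).le two_ne_zero] at k
  refine (congrArg (Ψ0 A f) ((congrArg Ξ.symm (h.jj q)).trans
    (Ξ.left_inv (h.src ⟨trivial, mem_ball_zero_iff.2 (n.trans_lt p.2)⟩)))).trans ?_
  simp only [Ψ0, cap, n, e _ hq, smul_smul, k, one_smul]

theorem neck : Gq S.X.I (Ψ0 A f ∘ Ξ.symm) ((S.M.bn R).j q)
    fun k => mf (IC (S.M.bn R).Y.I) S.X.I (S.M.bn R).j q (S.M.nf R 1 q k) := by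
  refine (gq_comp (((S.M.bn R).oe.loc q).mdifferentiableAt ne0) (ins h hA (j_neg.2 hq.2)).2.1).1 (gq_congr
    (eventually_of_mem ((isOpen_Ioo.preimage continuous_snd).mem_nhds hq) fun _ k => band h hA hC e k)
    (gq_cyl h.pr (l := fun s => len 1 false s + C) ?_ ?_ (Mark.wt_some h.np _ _) (two_le hC hq))) <;>
    rw [Mark.wt_none h.np]
  exacts [(hasDerivAt_len (b := false) (.inr hq.2)).add_const C, (sig_pos (.inr hq.2.ne)).ne']

omit hq in
theorem wld {W : World S.M} {B : Bas S.X univ} (std : Std W B) {p : Prm S.A} (hp : p.2 ∈ S.M.sys.Par)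
    (p1 : p.2 R = 1) (o : Only S.M {a | p.2 a ≠ 0} R false)
    (hB : ∀ x, (S.M.bn R).s x ≤ -1 → Co (atx (pfd Ξ (K0 A f)) x) (atx (B.r p.1) x)) {x : S.X.M}
    (hx : x ∈ (S.M.sys.w R).sd false) : Gq S.X.I (Ψ0 A f ∘ Ξ.symm) x (W.k p x) := by
  have g := fun k => (ins h hA hx).2.2.2.co (hB x k)
  by_cases k : x ∈ range (S.M.bn R).j
  · obtain ⟨q, rfl⟩ := k
    have n := j_neg.1 hx
    intro a b
    refine (std.band p.1 p.2 hp R (p1 ▸ one_ne_zero) q (.inr n.ne) _ _).trans ?_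
    rw [p1, tau_one, one_mul]
    rcases le_or_gt q.2 (-2) with k | k
    · rw [chi_eq_zero (le_abs.2 (.inr (by linarith))), g (s_le (by linarith))]; ring
    rw [neck h hA hC e ⟨by linarith, n⟩]
    rcases le_total q.2 (-1) with k | k
    · rw [g (s_le k)]; ring
    · rw [chi_eq_one (abs_le.2 ⟨k, by linarith⟩)]; ring
  · exact (g (s_off hx k)).co (std.off p.1 p.2 hp x fun a ha e =>
      (o a ha).elim (fun t => k (t ▸ e)) fun t => (S.M.sys.w R).not_mem_sd hx (t e)).symm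

end met

variable (R i) in
/-- sections which are constant in the marking -/
def PS (s : S.X.M → Matrix lam Unit ℂ) : Prop :=
  Uni S.X.I (fun _ => (1 : Matrix Unit Unit ℂ)) (S.N i).p s (hf S.M R false) ∧
    ∃ v, ∀ q : (S.M.bn R).Y.M × ℝ, |q.2| ≤ 3 → (S.N i).m R q * s ((S.M.bn R).j q) = v

open Classical in
/-- the flat connection inside -/
def gm (P : (S.X.M → Matrix lam Unit ℂ) → Prop) : S.X.M → Ext S.X.E :=
  if h : ∃ s, P s then -th S.X.I h.choose else 0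

theorem gm_sm : Dr59.Sm S.X.I ((S.M.sys.w R).sd false) (gm (PS R i)) := by
  unfold gm; split_ifs with h
  exacts [(h.choose_spec.1.mono subset_union_left).sm_th.neg, fun _ _ => Dr59.cAt_zero]

theorem gm_dg : Dr59.Dg 1 univ (gm (PS R i)) := by
  unfold gm; split_ifs
  exacts [(Line51.dg_th _).neg, .zero]

theorem PS.fl (ok : S.OK) {l : S.A} (hl : l ∈ S.ls) (hs : hf S.M R false ⊆ hf S.M l true) {s}
    (h : PS R i s) : PS R (S.fl l i) s := by
  have o := ok.out l hl i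
  have e : ∀ x ∈ hf S.M R false, (S.N (S.fl l i)).p x = (S.N i).p x := fun x hx =>
    (o.uni.iso x (hs hx)).tgt.symm.trans (by rw [((S.N i).ok.prj x trivial).herm, ((S.N i).ok.prj x trivial).idem])
  refine ⟨⟨h.1.sm, fun x hx => (e x hx).symm ▸ h.1.iso x hx⟩, h.2.imp fun v k q hq => .trans (congrArg (· * _) ?_) (k q hq)⟩
  refine .trans ?_ (o.m ⟨R, subset_union_right.trans hs⟩ q hq (hs (.inr ⟨q, rfl⟩)))
  exact (((S.N _).um R).iso q hq).idem.symm.trans (congrArg _ (e _ (.inr ⟨q, rfl⟩)))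

theorem fr_X (hD : DS S i R) {W : World S.M} {Λ : Lns W (S.N i)} {b : LBas S.X univ} (ls : LStd Λ b) {p : Prm S.A}
    (hp : p.2 ∈ S.M.sys.Par) (p1 : p.2 R = 1) (o : Only S.M {a | p.2 a ≠ 0} R false)
    (hb : ∀ x, (S.M.bn R).s x ≤ -1 → b.b p.1 x = gm (PS R i) x) :
    ∃ s, Ln.Fr S.X.I ⟨(S.N i).p, Λ.a0 p⟩ s 0 ((S.M.sys.w R).sd false) := by
  obtain ⟨θ, ϖ, Ξ, ρ, r, h⟩ := hD
  have ex : ∃ s, PS R i s := h.mrk.imp fun s ⟨v, a, c⟩ => ⟨a, v, c⟩
  obtain ⟨u, v, hv⟩ := ex.choose_spec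
  rw [gm, dif_pos ex] at hb
  refine ⟨_, u.mono subset_union_left, fun x hx => add_eq_zero_iff_eq_neg'.2 ?_⟩
  by_cases k : x ∈ range (S.M.bn R).j
  · obtain ⟨q, rfl⟩ := k
    have n := j_neg.1 hx
    refine band_inj _ (b := -th S.X.I ex.choose) ((ls.band p.1 p.2 hp R (p1 ▸ one_ne_zero) q).trans ?_)
    have g := fun k => Dr59.pm_congr_right (J := IC (S.M.bn R).Y.I) (I := S.X.I) (hb _ (s_le (q := q) k))
    rw [p1, tau_one, one_mul]
    rcases le_or_gt q.2 (-2) with k | k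
    · rw [chi_eq_zero (le_abs.2 (.inr (by linarith))), g (by linarith)]; simp
    have a : |q.2| < 3 := abs_lt.2 ⟨by linarith, by linarith⟩
    have c : (S.N i).nA R q = Dr59.pm (IC (S.M.bn R).Y.I) S.X.I (S.M.bn R).j (-th S.X.I ex.choose) q := by
      obtain ⟨p₀, e⟩ := h.ln
      have m := u.sm _ (.inr ⟨q, rfl⟩)
      rw [ML.nA, e, Dr59.pm_zero, Pi.zero_apply, add_zero, Dr59.pm_neg, Pi.neg_apply,
        Line51.pm_th m (((S.M.bn R).oe.loc q).mdifferentiableAt ne0), eq_neg_iff_add_eq_zero,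
        ← Line51.th_trans (m.comp ((S.M.bn R).oe.contMDiff q)) (((S.N i).um R).sm q a.le)
          (u.iso _ (.inr ⟨q, rfl⟩)) (((S.N i).um R).iso q a.le)]
      exact (Line51.th_congr (eventually_of_mem ((isOpen_lt continuous_snd.abs continuous_const).mem_nhds a)
        fun y (k : _ < _) => hv y k.le)).trans (congrFun (Line51.th_const v) q)
    rw [c]
    rcases le_total q.2 (-1) with k | k
    · rw [g k, ← add_smul, sub_add_cancel, one_smul]
    · rw [chi_eq_one (abs_le.2 ⟨k, by linarith⟩)]; simp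
  · exact (ls.off p.1 p.2 hp x fun a ha e => (o a ha).elim (fun t => k (t ▸ e))
      fun t => (S.M.sys.w R).not_mem_sd hx (t e)).trans (hb x (s_off hx k))

variable (Lm) in
/-- **DIX-PSC** -/
theorem psc : PscStmt Lm := by
  rintro S R i₀ β ok ⟨θ, ϖ, Ξ, ρ, r, h⟩
  obtain ⟨A, f, C, hA, hC, e⟩ := exists_rad h.up fun s => (h.pos s).1
  obtain ⟨B, B1, B2⟩ := exists_met (N := S.M.bn R) (fun x hx => (ins h hA hx).1) β.B
  let b := fun i => bl (gm_sm (R := R) (i := i)) gm_dg (β.b i)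
  have b2 : ∀ i u, ∀ x ∈ (S.M.sys.w R).sd true, (b i).b u x = (β.b i).b u x := fun i u x hx => by
    simp [b, bl, ca_zero (N := S.M.bn R) (x := x) (by linarith [s_pos.1 hx])]
  have hs : ∀ l ∈ S.ls, hf S.M R false ⊆ hf S.M l true := fun l hl x hx => .inl (by
    obtain ⟨c, hc⟩ := Wall.exists_side (h.cmp l hl).symm
    have t := h.ls l hl
    rcases hx with hx | hx
    · refine ((S.M.sys.w l).mem_cases true x).resolve_right fun k => (S.M.sys.w R).not_mem_sd hx (t ?_)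
      exact k.elim (fun k => .inr ((S.M.sys.w l).core_subset k)) .inl
    · cases c
      · obtain ⟨y, hy⟩ := (S.M.sys.w R).ne false
        exact ((S.M.sys.w R).not_mem_sd hy.2 (t (.inl (hc hy.1)))).elim
      · exact hc hx)
  refine ⟨⟨B, b, fun l u x hx => (β.met l u x hx).trans (B2 u _ (h.ls l l.2 (.inl (ok.sd_in i₀ l hx)))).symm,
    fun l i u x hx => (Dr59.pm_congr_right (b2 i u _ (h.ls l l.2 (.inl (ok.sd_in i₀ l hx))))).trans
      (β.con l i u x hx), fun l hl i u x hx => ?_⟩, fun u x hx => ⟨B2 u x hx, fun i => b2 i u x hx⟩, Fn, 2, pf,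
    fun D d1 d2 i hD m c p hp ho p1 o => ?_⟩
  · have : PS R (S.fl l i) = PS R i := funext fun s =>
      propext ⟨fun k => ok.inv l hl i ▸ k.fl ok hl (hs l hl), .fl ok hl (hs l hl)⟩
    simp only [b, bl, this, Pi.add_apply, Pi.smul_apply', β.agr l hl i u hx]
  have o' := o.mono (Sys.inf_subset p.2)
  have sr := (o'.mono hp.2).src D.W.toCaps
  obtain ⟨s, hs⟩ := fr_X hD (D.lstd i) hp.1 p1 o fun x hx => by simp [d2, b, bl, ca_one hx]
  let Ψ := (Ψ0 A f ∘ Ξ.symm) ∘ (D.W.φ c).symm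
  refine ⟨fun z => (Ψ z).1, fun z => (Ψ z).2.1, fun z => (Ψ z).2.2, 0, ?_, fun y t ht => ?_⟩
  · rintro _ ⟨x, hx, rfl⟩
    obtain ⟨a1, a2, a3⟩ := (wld h hA hC e D.std hp.1 p1 o (d1 ▸ B1 p.1) hx).push (D.W.φ c) (sr hx) (ins h hA hx).2.1
    refine ⟨rv_of _ a1 (a2.symm ▸ (ins h hA hx).2.2.1 :) ?_, fun t => ?_⟩
    · erw [(D.W.L m c).F_e (Mark.mem_Ω _ ho)]
      exact a3.co (D.W.co m c p hp x (o'.off hx))
    · have hU := (S.M.sys.w R).op_sd false
      have hL := ((D.Λ i).Λ m c).ln_on p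
      have mp : Dr59.Mp S.X.I (D.W.Z c).I ((S.M.sys.w R).sd false) univ (D.W.φ c) :=
        ⟨fun x hx => (Met55.pd_ld (sr hx)).contMDiffAt, mapsTo_univ _ _⟩
      refine (Ps86.fL_geo hL ((D.Λ i).B_ok m c) rfl rfl _ _ t).trans ?_
      have := Dr59.pm_inj (b := 0) (Met55.pd_ld (sr hx)) ((hL.F_pull isOpen_univ hU mp hx).symm.trans
        (((hs.trans (((D.Λ i).iso m c p hp).mono sr)).F_fr hU (hL.pull mp).sa hx).trans (by simp)))
      rw [this]
      exact Num57.e2_zero ..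
  · have n : (y, t).2 ∈ Ioo (-3 : ℝ) 0 := ⟨by linarith [ht.1], ht.2⟩
    have : Ψ (D.W.nj c R (y, t)) = _ := (congrArg (Ψ0 A f ∘ Ξ.symm) ((D.W.φ c).left_inv (sr (j_neg.2 ht.2)))).trans
      (band h hA hC e n)
    simp only [this]
    linarith

end Crest.Agent.X212.Psc4
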