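import Crest.Agent.X212.Psc4.Prf

/-!
# Row 212, DIX-PSC (helper4), file 2: the model `S¹ × cap` on `Circle × ℝ³`
-/

set_option autoImplicit false
set_option linter.unusedSectionVars false
noncomputable section
open Set Filter Topology Function
open scoped ContDiff Manifold InnerProductSpace

namespace Crest.Agent.X212.Psc4
open Dfl49 Cyl58 Sob92 Wz78 An
open Met55 (VF VAt FAt Co Sp atx dmp)
open Dr59 (mf ne0)
open Rf65 (V3)

/-- the ambient space -/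
abbrev W6 : Type := ℂ × V3 × ℝ

/-- the inner product of the ambient space -/
def pr (a : W6) : W6 →ₗ[ℝ] ℝ where
  toFun d := ⟪a.1, d.1⟫_ℝ + ⟪a.2.1, d.2.1⟫_ℝ + a.2.2 * d.2.2
  map_add' _ _ := by simp only [Prod.fst_add, Prod.snd_add, inner_add_right]; ring
  map_smul' _ _ := by
    simp only [Prod.smul_fst, Prod.smul_snd, inner_smul_right, smul_eq_mul, RingHom.id_apply]; ring

theorem pr_apply (a d : W6) : pr a d = ⟪a.1, d.1⟫_ℝ + ⟪a.2.1, d.2.1⟫_ℝ + a.2.2 * d.2.2 := rfl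

/-- the normal component -/
def nc (P a : W6) : ℝ := 2 * ⟪a.2.1, P.2.1⟫_ℝ - deriv Fn P.2.2 * a.2.2

/-- the projection to the tangent space of `S¹ × cap` -/
def Tq (P a b : W6) : ℝ := pr a b - ⟪a.1, P.1⟫_ℝ * ⟪b.1, P.1⟫_ℝ - nc P a * nc P b / nq2 Fn P.2.2

/-- points of `S¹ × cap` -/
structure Hq (P : W6) : Prop where
  n1 : ‖P.1‖ = 1
  n2 : ‖P.2.1‖ ^ 2 = Fn P.2.2
  h0 : 0 ≤ P.2.2

section gen
variable {E : Type} [NormedAddCommGroup E] [NormedSpace ℝ E] [FiniteDimensional ℝ E]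
  {H : Type} [TopologicalSpace H] {I : ModelWithCorners ℝ E H}
  {M : Type} [TopologicalSpace M] [ChartedSpace H M] [IsManifold I ∞ M]
  {E' : Type} [NormedAddCommGroup E'] [NormedSpace ℝ E'] [FiniteDimensional ℝ E']
  {H' : Type} [TopologicalSpace H'] {J : ModelWithCorners ℝ E' H'}
  {N : Type} [TopologicalSpace N] [ChartedSpace H' N] [IsManifold J ∞ N]
  {ι κ : Type} [Fintype ι] [Fintype κ] {Ψ : M → W6} {x : M}

variable (I) in
/-- the coordinate forms -/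
def fm (Ψ : M → W6) (x : M) (a : W6) : E →ₗ[ℝ] ℝ := pr a ∘ₗ dmp I 𝓘(ℝ, W6) Ψ x

variable (I) in
/-- `Ψ` is isometric for the cometric of `v` -/
def Gq (Ψ : M → W6) (x : M) (v : ι → E) : Prop := ∀ a b, X212.M.cm v (fm I Ψ x a) (fm I Ψ x b) = Tq (Ψ x) a b

theorem Gq.co {v : ι → E} {w : κ → E} (h : Gq I Ψ x v) (c : Co v w) : Gq I Ψ x w :=
  fun a b => (c _ _).symm.trans (h a b)

theorem gq_comp {f : N → M} {y : N} (hf : MDifferentiableAt J I f y) (h : SA I Ψ (f y)) {v : ι → E'} :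
    Gq J (Ψ ∘ f) y v ↔ Gq I Ψ (f y) fun k => mf J I f y (v k) := by
  have e : ∀ a u, fm J (Ψ ∘ f) y a u = fm I Ψ (f y) a (mf J I f y u) := fun a u =>
    congrArg (pr a) (DFunLike.congr_fun (Dr59.mf_comp h.md hf) u)
  simp only [Gq, X212.M.cm, e, comp_apply]

theorem gq_congr {Ψ' : M → W6} (e : Ψ' =ᶠ[𝓝 x] Ψ) {v : ι → E} (h : Gq I Ψ x v) : Gq I Ψ' x v := by
  have k : fm I Ψ' x = fm I Ψ x := funext fun a => LinearMap.ext fun u =>
    congrArg (pr a) (DFunLike.congr_fun (Dr59.mf_congr e) u)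
  rwa [Gq, k, e.self_of_nhds]

/-- push forward -/
theorem Gq.push (φ : PartialDiffeomorph I J M N ∞) (hx : x ∈ φ.source) (s : SA I Ψ x) {v : ι → E}
    (h : Gq I Ψ x v) : SA J (Ψ ∘ φ.symm) (φ x) ∧ (Ψ ∘ φ.symm) (φ x) = Ψ x ∧
      Gq J (Ψ ∘ φ.symm) (φ x) fun k => mf I J φ x (v k) := by
  have e : φ.symm (φ x) = x := φ.left_inv hx
  have s' : SA J (Ψ ∘ φ.symm) (φ x) :=
    ContMDiffAt.comp _ (e.symm ▸ s) (Met55.pd_ld' (φ.map_source hx)).contMDiffAt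
  exact ⟨s', congrArg Ψ e, (gq_comp ((Met55.pd_ld hx).mdifferentiableAt ne0) s').1 (gq_congr
    (eventually_of_mem (φ.open_source.mem_nhds hx) fun y hy => congrArg Ψ (φ.left_inv hy)) h)⟩

theorem rv_of [MeasurableSpace E] [BorelSpace E] [MeasurableSpace M] (F : Fr I M ι) (s : SA I Ψ x)
    (p : Hq (Ψ x)) (h : Gq I Ψ x (atx F.e x)) :
    Rv F Fn (fun y => (Ψ y).1) (fun y => (Ψ y).2.1) (fun y => (Ψ y).2.2) x := by
  have d1 := fun k => dv_clm (e := F.e k) (.fst ℝ ℂ (V3 × ℝ)) s.md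
  have d2 := fun k => dv_clm (e := F.e k) ((.fst ℝ V3 ℝ) ∘L (.snd ℝ ℂ (V3 × ℝ))) s.md
  have d3 := fun k => dv_clm (e := F.e k) ((.snd ℝ V3 ℝ) ∘L (.snd ℝ ℂ (V3 × ℝ))) s.md
  have k : ∀ a b, ∑ k, pr a (F.D k (fun y => (Ψ y).1) x, F.D k (fun y => (Ψ y).2.1) x,
      F.D k (fun y => (Ψ y).2.2) x) * pr b (F.D k (fun y => (Ψ y).1) x, F.D k (fun y => (Ψ y).2.1) x,
      F.D k (fun y => (Ψ y).2.2) x) = Tq (Ψ x) a b := fun a b =>
    (Finset.sum_congr rfl fun k _ => congrArg (fun d => pr a d * pr b d)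
      (Prod.ext (d1 k) (Prod.ext (d2 k) (d3 k)))).trans (h a b)
  have n := (pf.pos _ p.h0).ne'
  refine ⟨contDiffAt_fst.comp_contMDiffAt s, contDiffAt_snd.fst.comp_contMDiffAt s,
    contDiffAt_snd.snd.comp_contMDiffAt s, p.n1, p.n2, p.h0, fun v w => ?_, fun v w => ?_, fun v => ?_,
    fun v w => ?_, fun v => ?_, ?_⟩
  · simpa [pr_apply, Tq, nc] using k (v, 0, 0) (w, 0, 0)
  · simpa [pr_apply, Tq, nc] using k (v, 0, 0) (0, w, 0)
  · simpa [pr_apply, Tq, nc] using k (v, 0, 0) (0, 0, 1)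
  · have := k (0, v, 0) (0, w, 0)
    simp only [pr_apply, Tq, nc, inner_zero_left, zero_add, zero_mul, add_zero, mul_zero, sub_zero] at this
    rw [this]; ring
  · have := k (0, v, 0) (0, 0, 1)
    simp only [pr_apply, Tq, nc, inner_zero_left, inner_zero_right, zero_add, zero_mul, add_zero, mul_zero, sub_zero,
      one_mul] at this
    rw [this]; ring
  · have := k (0, 0, 1) (0, 0, 1)
    simp only [pr_apply, Tq, nc, inner_zero_left, zero_add, add_zero, mul_zero, sub_zero, one_mul] at this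
    rw [this]
    field_simp
    rw [nq2]; ring

theorem vAt_prod {V : VF I M} {W : VF J N} {q : M × N} (hV : VAt I V q.1) (hW : VAt J W q.2) :
    VAt (I.prod J) (fun q => (V q.1, W q.2)) q :=
  (contMDiff_equivTangentBundleProd_symm (I := I) (M := M) (I' := J) (M' := N) (n := ∞) _).comp q
    ((hV.comp q contMDiffAt_fst).prodMk (hW.comp q contMDiffAt_snd))

end gen

/-! ### the circle -/

/-- the rotation field -/
def rot : VF (𝓡 1) Circle := fun z => (mf 𝓘(ℝ, ℝ) (𝓡 1) Circle.exp (z : ℂ).arg 1 : EuclideanSpace ℝ (Fin 1))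

theorem d_exp (t : ℝ) : mf (𝓡 1) 𝓘(ℝ, ℂ) (fun z : Circle => (z : ℂ)) (Circle.exp t)
    (mf 𝓘(ℝ, ℝ) (𝓡 1) Circle.exp t 1) = Circle.exp t * Complex.I := by
  have h : HasDerivAt (fun s : ℝ => ((Circle.exp s : Circle) : ℂ)) (Circle.exp t * Complex.I) t := by
    simpa [Circle.coe_exp] using ((Complex.ofRealCLM.hasDerivAt (x := t)).mul_const Complex.I).cexp
  rw [← ContinuousLinearMap.comp_apply, ← Dr59.mf_comp ((Line51.contMDiff_coe _).mdifferentiableAt ne0)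
    ((contMDiff_circleExp t).mdifferentiableAt ne0), Dr59.mf_eq_fderiv]
  exact h.deriv

theorem d_rot (z : Circle) : dv (𝓡 1) rot (fun z : Circle => (z : ℂ)) z = z * Complex.I := by
  have := d_exp (z : ℂ).arg
  rwa [Circle.exp_arg] at this

theorem rot_exp (t : ℝ) : mfderiv 𝓘(ℝ, ℝ) (𝓡 1) Circle.exp t 1 = rot (Circle.exp t) :=
  haveI : Fact (Module.finrank ℝ ℂ = 1 + 1) := ⟨Complex.finrank_real_complex⟩
  injective_mvfderiv_subtypeVal_sphere (E := ℂ) (n := 1) _ ((d_exp t).trans (d_rot _).symm)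

theorem vAt_rot (z : Circle) : VAt (𝓡 1) rot z :=
  Circle.exp_arg z ▸ (Met55.vAt_rel (X := fun _ => (1 : ℝ)) (Glue52.ld_circleExp _) (.of_forall rot_exp)).1
    (contMDiffAt_vectorSpace_iff_contDiffAt.2 contDiffAt_const)

theorem sp_rot (z : Circle) (u : EuclideanSpace ℝ (Fin 1)) :
    ∃ t : ℝ, u = t • (rot z : EuclideanSpace ℝ (Fin 1)) := by
  obtain ⟨t, rfl⟩ : ∃ t, mf 𝓘(ℝ, ℝ) (𝓡 1) Circle.exp (z : ℂ).arg t = u :=
    (Met55.ld_bij (Glue52.ld_circleExp (z : ℂ).arg)).2 u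
  exact ⟨t, (congrArg _ (mul_one t).symm).trans (map_smul _ t 1)⟩

/-! ### the cap -/

variable (A f : ℝ → ℝ)

/-- the parametrisation of the cap -/
def cap (p : V3) : V3 × ℝ := (f (‖p‖ ^ 2) • p, A (‖p‖ ^ 2))

/-- the coefficient of the radial field -/
def kp (x a c : ℝ) : ℝ := (2 * f x ^ 2 * c - (4 * f x * deriv A x + 2 * deriv Fn (A x) * deriv f x) * a) /
  (deriv A x * nq2 Fn (A x))

/-- the lift of the projection of `v` -/
def lf (v : V3 × ℝ) (p : V3) : V3 := (f (‖p‖ ^ 2))⁻¹ • v.1 + kp A f (‖p‖ ^ 2) ⟪p, v.1⟫_ℝ v.2 • p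

/-- the standard basis -/
def bs : Option (Fin 3) → V3 × ℝ
  | none => (0, 1)
  | some k => (EuclideanSpace.single k 1, 0)

theorem alg {P : W6} (hP : Hq P) (a c : W6) : pr a (P.1 * Complex.I, 0) * pr c (P.1 * Complex.I, 0) +
    ∑ k, pr a (0, bs k - (nc (0, P.2) (0, bs k) / nq2 Fn P.2.2) • (2 • P.2.1, -deriv Fn P.2.2)) *
      pr c (0, bs k - (nc (0, P.2) (0, bs k) / nq2 Fn P.2.2) • (2 • P.2.1, -deriv Fn P.2.2)) = Tq P a c := by
  obtain ⟨z, w, t⟩ := P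
  obtain ⟨n1, n2, n0⟩ := hP
  have m := mul_inv_cancel₀ (pf.pos _ n0).ne'
  have n3 : nq2 Fn t = 4 * ‖w‖ ^ 2 + deriv Fn t ^ 2 := n2 ▸ rfl
  rw [EuclideanSpace.real_norm_sq_eq, Fin.sum_univ_three] at n3
  rw [← sq_eq_sq₀ (norm_nonneg _) zero_le_one, Complex.sq_norm, Complex.normSq_apply] at n1
  simp only [Tq, pr_apply, div_eq_mul_inv] at *
  generalize (nq2 Fn t)⁻¹ = r at *
  simp [Fin.sum_univ_three, bs, PiLp.inner_apply, Complex.inner, nc]
  linear_combination (a.1.re * c.1.re + a.1.im * c.1.im) * n1 +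
    (2 * (a.2.1 0 * w 0 + a.2.1 1 * w 1 + a.2.1 2 * w 2) - deriv Fn t * a.2.2) *
    (2 * (c.2.1 0 * w 0 + c.2.1 1 * w 1 + c.2.1 2 * w 2) - deriv Fn t * c.2.2) * (r * m - r ^ 2 * n3)

/-- the model manifold -/
abbrev IQ := (𝓡 1).prod 𝓘(ℝ, V3)

/-- the immersion -/
def Ψ0 (q : Circle × V3) : W6 := (q.1, cap A f q.2)

/-- the frame -/
def K0 : Option (Option (Fin 3)) → VF IQ (Circle × V3)
  | none => fun q => (rot q.1, (0 : V3))
  | some k => fun q => ((0 : EuclideanSpace ℝ (Fin 1)), lf A f (bs k) q.2)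

variable {A f} {b : ℝ} (h : Rad A f b) {p : V3} (hp : ‖p‖ ^ 2 < b)
include h hp

theorem nq_pos : 0 < nq2 Fn (A (‖p‖ ^ 2)) := pf.pos _ (h.nn _ hp (sq_nonneg _))

theorem cd_cap : ContDiffAt ℝ ∞ (cap A f) p :=
  have n := (contDiff_norm_sq ℝ).contDiffAt (x := p) (n := ∞)
  (((h.sf _ hp).comp p n).smul contDiffAt_id).prodMk ((h.up _ hp).1.comp p n)

theorem cd_lf (v : V3 × ℝ) : ContDiffAt ℝ ∞ (lf A f v) p := by
  have n := (contDiff_norm_sq ℝ).contDiffAt (x := p) (n := ∞)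
  have a := (h.up _ hp).1.comp p n
  have a' := ((h.up _ hp).1.derivWithin (m := ∞) le_rfl).comp p n
  have c := (h.sf _ hp).comp p n
  have c' := ((h.sf _ hp).derivWithin (m := ∞) le_rfl).comp p n
  have d := pf.sm.contDiffAt.comp p a
  have d' := (pf.sm.contDiffAt.derivWithin (m := ∞) le_rfl).comp p a
  exact ((c.inv (h.pos _ hp).ne').smul contDiffAt_const).add (.smul (.div
    (((contDiffAt_const.mul (c.pow 2)).mul contDiffAt_const).sub ((((contDiffAt_const.mul c).mul a').add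
      ((contDiffAt_const.mul d').mul c')).mul (contDiffAt_id.inner ℝ contDiffAt_const)))
    (a'.mul ((contDiffAt_const.mul d).add (d'.pow 2))) (mul_pos (h.up _ hp).2 (nq_pos h hp)).ne') contDiffAt_id)

theorem d_eq : 2 * f (‖p‖ ^ 2) * deriv f (‖p‖ ^ 2) * ‖p‖ ^ 2 + f (‖p‖ ^ 2) ^ 2 =
    deriv Fn (A (‖p‖ ^ 2)) * deriv A (‖p‖ ^ 2) := by
  have a := ((((h.sf _ hp).differentiableAt (by simp)).hasDerivAt.pow 2).mul (hasDerivAt_id _)).unique
    ((((pf.sm.differentiable (by simp) _).hasDerivAt.comp _ (h.up.hasDerivAt hp))).congr_of_eventuallyEq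
      ((eventually_lt_nhds hp).mono h.eq))
  simpa using a

theorem d_cap (v : V3 × ℝ) : fderiv ℝ (cap A f) p (lf A f v p) =
    v - (nc (0, cap A f p) (0, v) / nq2 Fn (A (‖p‖ ^ 2))) • (2 • (cap A f p).1, -deriv Fn (A (‖p‖ ^ 2))) := by
  have n := (hasStrictFDerivAt_norm_sq p).hasFDerivAt
  have a := ((((h.sf _ hp).differentiableAt (by simp)).hasDerivAt.comp_hasFDerivAt p n).smul
    (hasFDerivAt_id p)).prodMk ((h.up.hasDerivAt hp).comp_hasFDerivAt p n)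
  have e := d_eq h hp
  have k := h.eq _ hp
  have n0 := (nq_pos h hp).ne'
  have f0 := (h.pos _ hp).ne'
  have a0 := (h.up _ hp).2.ne'
  have n1 : nq2 Fn (A (‖p‖ ^ 2)) = 4 * (f (‖p‖ ^ 2) ^ 2 * ‖p‖ ^ 2) + deriv Fn (A (‖p‖ ^ 2)) ^ 2 := k ▸ rfl
  rw [show fderiv ℝ (cap A f) p = _ from a.fderiv]
  simp only [lf, kp, nc, cap, real_inner_smul_right, real_inner_comm p]
  refine Prod.ext ?_ ?_ <;> simp [inner_add_right, inner_smul_right]
  · match_scalars <;> field_simp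
    rw [n1]
    linear_combination (2 * f (‖p‖ ^ 2) ^ 2 * v.2 - 2 * deriv Fn (A (‖p‖ ^ 2)) * deriv f (‖p‖ ^ 2) * ⟪p, v.1⟫_ℝ) * e
  · field_simp
    rw [n1]
    linear_combination (-2 * deriv Fn (A (‖p‖ ^ 2)) * ⟪p, v.1⟫_ℝ) * e

theorem sp_lf : Sp fun k => lf A f (bs k) p := fun v => by
  have n0 := (nq_pos h hp).ne'
  have f0 := (h.pos _ hp).ne'
  have a0 := (h.up _ hp).2.ne'
  refine ⟨fun k => k.elim ((2 * deriv A (‖p‖ ^ 2) + deriv Fn (A (‖p‖ ^ 2)) * deriv f (‖p‖ ^ 2) / f (‖p‖ ^ 2)) *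
    ⟪p, v⟫_ℝ) fun k => f (‖p‖ ^ 2) * v k, ?_⟩
  ext i
  fin_cases i <;> simp [Fin.sum_univ_three, lf, bs, kp, PiLp.inner_apply] <;> field_simp <;> ring

omit hp
variable {q : Circle × V3} (hq : ‖q.2‖ ^ 2 < b)
include hq

theorem sa_Ψ0 : SA IQ (Ψ0 A f) q :=
  ((Line51.contMDiff_coe _).comp q contMDiffAt_fst).prodMk_space
    ((cd_cap h hq).contMDiffAt.comp q contMDiffAt_snd)

theorem hq_Ψ0 : Hq (Ψ0 A f q) :=
  ⟨q.1.norm_coe, by
    rw [Ψ0, cap, norm_smul, mul_pow, Real.norm_eq_abs, sq_abs, h.eq _ hq], h.nn _ hq (sq_nonneg _)⟩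

theorem fAt_K0 : FAt (K0 A f) q := by
  refine ⟨?_, fun v => ?_⟩
  · rintro (_ | k)
    exacts [vAt_prod (vAt_rot _) .zero, vAt_prod .zero (contMDiffAt_vectorSpace_iff_contDiffAt.2 (cd_lf h hq _))]
  · obtain ⟨t, h1⟩ := sp_rot q.1 v.1
    obtain ⟨c, h2⟩ := sp_lf h hq v.2
    refine ⟨fun k => k.elim t c, ?_⟩
    rw [Fintype.sum_option]
    refine Prod.ext (h1.trans ?_) (h2.trans ?_) <;> simp [Prod.fst_sum, Prod.snd_sum, atx, K0]
    rfl

theorem d_Ψ0 (v : EuclideanSpace ℝ (Fin 1) × V3) : mf IQ 𝓘(ℝ, W6) (Ψ0 A f) q v =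
    (mf (𝓡 1) 𝓘(ℝ, ℂ) (fun z : Circle => (z : ℂ)) q.1 v.1, fderiv ℝ (cap A f) q.2 v.2) := by
  have a := (Line51.contMDiff_coe q.1).mdifferentiableAt ne0
  have c := (cd_cap h hq).contMDiffAt.mdifferentiableAt ne0
  refine (dv_prod (e := fun _ => v) (a.comp q mdifferentiableAt_fst) (c.comp q mdifferentiableAt_snd)).trans ?_
  rw [← mfderiv_eq_fderiv]
  exact congrArg₂ Prod.mk (Met55.dv_rel (X' := fun _ => v.1) mdifferentiableAt_fst (by rw [mfderiv_fst]; rfl) a)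
    (Met55.dv_rel (X' := fun _ => v.2) mdifferentiableAt_snd (by rw [mfderiv_snd]; rfl) c)

theorem gq_K0 : Gq IQ (Ψ0 A f) q (atx (K0 A f) q) := fun a c => by
  have e0 : ∀ a, fm IQ (Ψ0 A f) q a (K0 A f none q) = pr a (q.1 * Complex.I, 0) := fun a =>
    congrArg (pr a) ((d_Ψ0 h hq _).trans (Prod.ext (d_rot _) (map_zero _)))
  have e1 : ∀ a k, fm IQ (Ψ0 A f) q a (K0 A f (some k) q) = pr a (0, _) := fun a k =>
    congrArg (pr a) ((d_Ψ0 h hq (K0 A f (some k) q)).trans (Prod.ext (map_zero _) (d_cap h hq (bs k))))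
  rw [X212.M.cm, Fintype.sum_option]
  exact (congrArg₂ _ (congrArg₂ _ (e0 a) (e0 c)) (Finset.sum_congr rfl fun k _ =>
    congrArg₂ _ (e1 a k) (e1 c k))).trans (alg (hq_Ψ0 h hq) a c)

end Crest.Agent.X212.Psc4
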