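import Crest.Agent.X212.Dfl49.Cpd

/-!
# Row 212, DIX-PSC (helper4), file 1: the profile of the cap and the radial functions
-/

set_option autoImplicit false
noncomputable section
open Set Filter Topology Function
open scoped ContDiff

namespace Crest.Agent.X212.Psc4
open Dfl49 Cyl58 M

local notation "st" => Real.smoothTransition

/-- the primitive of the step -/
def G0 (t : ℝ) : ℝ := ∫ x in (0 : ℝ)..t, st (2 - x)

theorem cd_st : ContDiff ℝ ∞ fun x : ℝ => st (2 - x) :=
  Real.smoothTransition.contDiff.comp (contDiff_const.sub contDiff_id)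

theorem hd_G0 (t : ℝ) : HasDerivAt G0 (st (2 - t)) t :=
  (cd_st.continuous.integral_hasStrictDerivAt 0 t).hasDerivAt

theorem mono_G0 : Monotone G0 :=
  monotone_of_hasDerivAt_nonneg hd_G0 fun _ => Real.smoothTransition.nonneg _

theorem G0_lo {t : ℝ} (h : t ≤ 1) : G0 t = t := by
  rw [G0, intervalIntegral.integral_congr (g := fun _ => 1) fun x hx =>
    Real.smoothTransition.one_of_one_le (by rcases mem_uIcc.1 hx with k | k <;> linarith [k.2])]
  simp

theorem G0_hi {t : ℝ} (h : 2 ≤ t) : G0 t = G0 2 := by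
  have i := fun a b => cd_st.continuous.intervalIntegrable (μ := MeasureTheory.volume) a b
  rw [G0, ← intervalIntegral.integral_add_adjacent_intervals (i 0 2) (i 2 t),
    intervalIntegral.integral_congr (a := 2) (g := fun _ => 0) fun x hx =>
      Real.smoothTransition.zero_of_nonpos (by rw [uIcc_of_le h] at hx; linarith [hx.1])]
  simp [G0]

theorem G0_pos {t : ℝ} (h : 0 < t) : 0 < G0 t :=
  (lt_min h one_pos).trans_le ((G0_lo (min_le_right _ _)).ge.trans (mono_G0 (min_le_left _ _)))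

/-- the profile -/
def Fn (t : ℝ) : ℝ := (G0 2)⁻¹ * G0 t

theorem k_pos : 0 < (G0 2)⁻¹ := inv_pos.2 (G0_pos two_pos)

theorem d_Fn : deriv Fn = fun t => (G0 2)⁻¹ * st (2 - t) := funext fun t => ((hd_G0 t).const_mul _).deriv

theorem pf : Pf Fn 2 := by
  have p : ∀ t, 0 ≤ deriv Fn t := fun t => d_Fn ▸ mul_nonneg k_pos.le (Real.smoothTransition.nonneg _)
  refine ⟨contDiff_infty_iff_deriv.2 ⟨fun t => ((hd_G0 t).const_mul _).differentiableAt,
    d_Fn ▸ contDiff_const.mul cd_st⟩, p, fun t => Antitone.deriv_nonpos fun a b h => ?_,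
    fun t h => ?_, fun t h => ?_⟩
  · rw [d_Fn]
    exact mul_le_mul_of_nonneg_left (Real.smoothTransition.monotone (by linarith)) k_pos.le
  · rw [Fn, G0_hi h, inv_mul_cancel₀ (G0_pos two_pos).ne']
  · rcases h.eq_or_lt with rfl | h
    · have := k_pos
      simp only [nq2, d_Fn, Fn, G0_lo zero_le_one, sub_zero, Real.smoothTransition.one_of_one_le one_le_two]
      positivity
    · exact add_pos_of_pos_of_nonneg (mul_pos four_pos (mul_pos k_pos (G0_pos h))) (sq_nonneg _)

/-- the radial functions: height `A x`, radius `f x * √x` -/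
structure Rad (A f : ℝ → ℝ) (b : ℝ) : Prop where
  up : Up A (Iio b)
  nn : ∀ x < b, 0 ≤ x → 0 ≤ A x
  sf : ∀ x < b, ContDiffAt ℝ ∞ f x
  pos : ∀ x < b, 0 < f x
  eq : ∀ x < b, f x ^ 2 * x = Fn (A x)

theorem exists_f {A : ℝ → ℝ} {a b : ℝ} (up : Up A (Iio b)) (ha : 0 < a) (h : ∀ x ≤ a, A x = x) :
    ∃ f, Rad A f b := by
  have p : ∀ x < b, 0 < x → 0 < A x := fun x hx k =>
    (h 0 ha.le).ge.trans_lt (up.strictMonoOn ordConnected_Iio (k.trans hx) hx k)
  have c := lt_min ha one_pos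
  have l : ∀ x < min a 1, Fn (A x) = (G0 2)⁻¹ * x := fun x hx => by
    rw [h x (hx.le.trans (min_le_left ..)), Fn, G0_lo (hx.le.trans (min_le_right ..))]
  let f : ℝ → ℝ := fun x => if x < min a 1 then √(G0 2)⁻¹ else √(Fn (A x) / x)
  have e : ∀ x, 0 < x → f x = √(Fn (A x) / x) := fun x k => ite_eq_right_iff.2 fun hx => by
    rw [l x hx, mul_div_cancel_right₀ _ k.ne']
  have q : ∀ x < b, 0 < x → 0 < Fn (A x) / x := fun x hx k => div_pos (mul_pos k_pos (G0_pos (p x hx k))) k
  refine ⟨f, up, fun x hx k => k.eq_or_lt.elim (fun e => e ▸ (h 0 ha.le).ge) fun k => (p x hx k).le,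
    fun x hx => ?_, fun x hx => ?_, fun x hx => ?_⟩ <;> rcases lt_or_ge x (min a 1) with k | k
  · exact contDiffAt_const.congr_of_eventuallyEq ((eventually_lt_nhds k).mono fun y hy => if_pos hy)
  · have k := c.trans_le k
    exact (((pf.sm.contDiffAt.comp x (up x hx).1).div contDiffAt_id k.ne').sqrt
      (q x hx k).ne').congr_of_eventuallyEq ((eventually_gt_nhds k).mono e)
  · exact (Real.sqrt_pos.2 k_pos).trans_eq (if_pos k).symm
  · exact e x (c.trans_le k) ▸ Real.sqrt_pos.2 (q x hx (c.trans_le k))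
  · rw [show f x = _ from if_pos k, Real.sq_sqrt k_pos.le, l x k]
  · have k := c.trans_le k
    rw [e x k, Real.sq_sqrt (q x hx k).le, div_mul_cancel₀ _ k.ne']

theorem up_len : Up (len 1 false) (Iio 0) :=
  have m : ∀ s ∈ Iio (0 : ℝ), s ∈ dom 1 false := fun _ h => .inr h
  Up.of_hasDerivAt (fun s h => (contDiffOn_len 1 false).contDiffAt ((isOpen_dom 1 false).mem_nhds (m s h)))
    (fun s h => hasDerivAt_len (m s h)) fun s h => inv_pos.2 (sig_pos (dom_off (m s h)))

theorem exists_rad {ρ : ℝ → ℝ} (up : Up ρ univ) (pos : ∀ s, 0 < ρ s) : ∃ A f C, Rad A f (ρ 0 ^ 2) ∧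
    4 ≤ C ∧ ∀ s ∈ Ioo (-3 : ℝ) 0, A (ρ s ^ 2) = len 1 false s + C := by
  let g : ℝ → ℝ := fun s => ρ s ^ 2
  have ug : Up g univ := Up.of_hasDerivAt (fun s _ => (up s trivial).1.pow 2)
    (fun s _ => (up.hasDerivAt trivial).pow 2) fun s _ => by
      have := pos s
      have := (up s trivial).2
      positivity
  have i : ∀ s, invFunOn g univ (g s) = s := fun s =>
    ug.strictMono.injective.injOn.leftInvOn_invFunOn trivial
  have o := (ug.mono (subset_univ (Iio 0))).isOpen_image isOpen_Iio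
  obtain ⟨A, h1, h2, h3⟩ := exists_up (ug.strictMono (show (-4 : ℝ) < -3 by norm_num)) (Up.id univ) univ_mem
    ((Up.add_const (g (-4) + 4) univ).comp (up_len.comp ((ug.inv isOpen_univ ordConnected_univ).mono
      (image_mono (subset_univ (Iio 0)))) (by rintro _ ⟨s, h, rfl⟩; rwa [i])) (mapsTo_univ ..))
    (o.mem_nhds ⟨-3, by norm_num, rfl⟩) (by
      simp only [comp_apply, i, len_outer (t := 1) (b := false) (s := -3) (by simp [pm]), pm]
      norm_num
      linarith)
  have p : 0 < g (-4) := pow_pos (pos _) 2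
  refine (exists_f (b := g 0) (h1.mono fun x hx => ?_) p h2).elim fun f hf => ⟨A, f, g (-4) + 4, hf,
    by linarith, fun s hs => (h3 _ (ug.strictMono hs.1).le).trans (by simp only [comp_apply, i])⟩
  rcases lt_or_ge x (g (-4)) with k | k
  · exact .inl (.inl ⟨trivial, k⟩)
  rcases le_or_gt x (g (-3)) with k' | k'
  · exact .inl (.inr ⟨k, k'⟩)
  obtain ⟨s, -, rfl⟩ := (ug.image_Icc (show (-3 : ℝ) ≤ 0 by norm_num) (subset_univ _)).ge ⟨k'.le, le_of_lt hx⟩
  exact .inr ⟨⟨s, ug.strictMono.lt_iff_lt.1 hx, rfl⟩, k'⟩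

end Crest.Agent.X212.Psc4
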